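import Vale.Agent.P272.K.QN.H527.Tools
import Vale.Agent.P272.K.INT.Global
import Vale.Agent.P272.K.Asm.Weak

/-! # Block VO: lower volume bound -/

open scoped Manifold ContDiff Topology ComplexConjugate ComplexOrder
open TopologicalSpace (Opens)
open Matrix MeasureTheory Set Filter
open Vale.Agent.P272.K.INT

set_option linter.all false

noncomputable section

namespace Vale.Agent.P272.K.QN

variable {n : ℕ} {X : Type} [TopologicalSpace X] [ChartedSpace (Cm n) X]
  [IsManifold 𝓘(ℂ, Cm n) ω X]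

/-- the difference of two metrics on the canonical bundle -/
lemma exists_diff' {φ ψ : Chart n X → Cm n → ℝ} (hφ : IsCanonicalMetric φ)
    (hψ : IsCanonicalMetric ψ) : ∃ u : X → ℝ, SmoothFn (n := n) u ∧
      (∀ e x, At e x → u x = ψ e (e x) - φ e (e x)) ∧
      ∀ e x, At e x → cHess (ψ e) (e x) =
        cHess (φ e) (e x) + cHess (fun y => u (e.symm y)) (e x) := by
  set u : X → ℝ := fun x => ψ (chartAt (Cm n) x) (chartAt (Cm n) x x) -
    φ (chartAt (Cm n) x) (chartAt (Cm n) x x) with hu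
  have hu' : ∀ e x, At e x → u x = ψ e (e x) - φ e (e x) := fun e x h =>
    canonical_diff hψ.change hφ.change ⟨chart_mem_atlas _ x, mem_chart_source _ x⟩ h
  have hev : ∀ (e : Chart n X) x, At e x →
      (fun y => u (e.symm y)) =ᶠ[𝓝 (e x)] fun y => ψ e y - φ e y := by
    intro e x h
    filter_upwards [h.nhds_target] with y hy
    rw [hu' e _ (At.of_target h.1 hy), e.right_inv hy]
  refine ⟨u, fun e x h => ?_, hu', fun e x h => ?_⟩
  · exact ((hψ.smooth e x h).sub (hφ.smooth e x h)).congr_of_eventuallyEq (hev e x h)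
  · rw [cHess_congr (hev e x h), cHess_sub ((hψ.smooth e x h).of_le two_le_inf)
      ((hφ.smooth e x h).of_le two_le_inf)]
    abel

/-- the arithmetic at the end -/
lemma final_arith {n : ℕ} (hn : 1 ≤ n) {c3 C4 M V : ℝ} (hc3 : 0 < c3) (hC4 : 0 < C4)
    (h1 : c3 * Real.exp ((1 - 1 / (n : ℝ)) * M) ≤ V) (h2 : V ≤ C4 * Real.exp M) :
    c3 * (c3 / C4) ^ (n - 1) ≤ V := by
  have hn0 : (0 : ℝ) < n := by exact_mod_cast hn
  have e1 : Real.exp M = Real.exp ((1 - 1 / (n : ℝ)) * M) * Real.exp (M / n) := by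
    rw [← Real.exp_add]; congr 1; field_simp; ring
  have h3 : c3 / C4 ≤ Real.exp (M / n) := by
    rw [div_le_iff₀ hC4]
    have h4 := h1.trans h2
    rw [e1] at h4
    have h5 := Real.exp_pos ((1 - 1 / (n : ℝ)) * M)
    by_contra hcon
    push Not at hcon
    nlinarith [mul_lt_mul_of_pos_left hcon h5]
  have e2 : Real.exp ((1 - 1 / (n : ℝ)) * M) = Real.exp (M / n) ^ (n - 1) := by
    rw [← Real.exp_nat_mul]
    congr 1
    rw [Nat.cast_sub hn]
    push_cast
    field_simp
  refine le_trans ?_ h1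
  rw [e2]
  have h6 : 0 ≤ c3 / C4 := by positivity
  exact mul_le_mul_of_nonneg_left (pow_le_pow_left₀ h6 h3 _) hc3.le

theorem voBlock (n : ℕ) (X : Type) [TopologicalSpace X] [ChartedSpace (Cm n) X]
    [IsManifold 𝓘(ℂ, Cm n) ω X] [T2Space X] [CompactSpace X] [ConnectedSpace X]
    (hGL : GLBlock n X) (hHA : HABlock n X) : VOBlock n X := by
  intro hn w h hw hh κ hκ hκ0 hcurv hpt a ha φ hφ
  obtain ⟨e₁, x₁, hx₁, hκ₁, hdef₁⟩ := hpt
  have hn0 : (0 : ℝ) < n := by exact_mod_cast hn
  -- the good ball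
  have hdet0 : 0 < (h e₁ (e₁ x₁)).det.re := (Complex.lt_def.1 hdef₁.det_pos).1
  have hcκ : ContinuousAt (fun z => κ (e₁.symm z)) (e₁ x₁) :=
    hκ.continuousAt.comp (e₁.continuousAt_symm (e₁.map_source hx₁.2))
  have hcd : ContinuousAt (fun z => (h e₁ z).det.re) (e₁ x₁) :=
    (contDiffAt_re (contDiffAt_det (hh.smooth e₁ x₁ hx₁))).continuousAt
  have hcφ : ContinuousAt (φ e₁) (e₁ x₁) := (hφ.smooth e₁ x₁ hx₁).continuousAt
  set k0 : ℝ := κ x₁ / 2 with hk0
  set d0 : ℝ := (h e₁ (e₁ x₁)).det.re / 2 with hd0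
  set m0 : ℝ := φ e₁ (e₁ x₁) - 1 with hm0
  have hk0p : 0 < k0 := by rw [hk0]; linarith
  have hd0p : 0 < d0 := by rw [hd0]; linarith
  have ev1 : ∀ᶠ z in 𝓝 (e₁ x₁), k0 < κ (e₁.symm z) := by
    apply hcκ.eventually_const_lt
    show k0 < κ (e₁.symm (e₁ x₁))
    rw [hx₁.left_inv, hk0]; linarith
  have ev2 : ∀ᶠ z in 𝓝 (e₁ x₁), d0 < (h e₁ z).det.re := by
    apply hcd.eventually_const_lt
    rw [hd0]; linarith
  have ev3 : ∀ᶠ z in 𝓝 (e₁ x₁), m0 < φ e₁ z := by
    apply hcφ.eventually_const_lt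
    rw [hm0]; linarith
  have ev : ∀ᶠ z in 𝓝 (e₁ x₁), z ∈ e₁.target ∧ k0 < κ (e₁.symm z) ∧ d0 < (h e₁ z).det.re ∧
      m0 < φ e₁ z := by
    filter_upwards [hx₁.nhds_target, ev1, ev2, ev3] with z h1 h2 h3 h4
    exact ⟨h1, h2, h3, h4⟩
  obtain ⟨r, hr, hball⟩ := Metric.nhds_basis_closedBall.mem_iff.1 ev
  have hbt : Metric.closedBall (e₁ x₁) r ⊆ e₁.target := fun z hz => (hball hz).1
  -- the comparison constant for `i∂∂̄φ`
  obtain ⟨A', hA'0, hA'⟩ := exists_comparison_form hw.toIsHermitian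
    (isClosedForm_canonical hφ).smooth
    (fun e x hx => cHess_isHermitian ((hφ.smooth e x hx).of_le two_le_inf))
    (isClosedForm_canonical hφ).form
  -- Hartogs
  obtain ⟨δ, hδ, hHAδ⟩ := hHA hn w hw.toIsHermitian (A' + (a + 1)) e₁ hx₁.1 (e₁ x₁) r hr hbt
  -- constants
  set p : ℝ := 1 / (n : ℝ) with hp
  have hp0 : 0 < p := by rw [hp]; positivity
  have hp1 : p ≤ 1 := by
    rw [hp, div_le_one hn0]; exact_mod_cast hn
  set c3' : ℝ := k0 * (n * d0 ^ p) * Real.exp ((1 - p) * m0) with hc3'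
  have hc3'p : 0 < c3' := by rw [hc3']; positivity
  set c3 : ℝ := c3' * δ / 4 with hc3
  have hc3p : 0 < c3 := by rw [hc3]; positivity
  have hI0 : 0 ≤ intX (fun e z => Real.exp (φ e z)) :=
    intX_nonneg fun e x hx => (Real.exp_pos _).le
  set C4 : ℝ := intX (fun e z => Real.exp (φ e z)) + 1 with hC4
  have hC4p : 0 < C4 := by rw [hC4]; linarith
  refine ⟨c3 * (c3 / C4) ^ (n - 1), by positivity, ?_⟩
  intro t hat hta ψ hψ hpos hlog
  have ht0 : 0 ≤ t := by linarith
  set g : Chart n X → Cm n → Matrix (Fin n) (Fin n) ℂ :=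
    fun e z => cHess (ψ e) z + (t : ℂ) • w e z with hg
  have hgK : IsKahler g := isKahler_twist hψ hw t hpos
  have hgH : IsHermitian g := hgK.toIsHermitian
  have hdetg : ∀ e x, At e x → (g e (e x)).det.re = Real.exp (ψ e (e x)) := by
    intro e x hx
    have h1 := hlog e x hx
    have h2 : 0 < (g e (e x)).det.re := hgH.det_re_pos hx
    rw [← h1, Real.exp_log h2]
  -- Ricci bound
  have hric : ∀ e x, At e x →
      (-cHess (fun z => Real.log (g e z).det.re) (e x) + g e (e x)).PosSemidef := by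
    intro e x hx
    have h1 : (fun z => Real.log (g e z).det.re) =ᶠ[𝓝 (e x)] ψ e := by
      filter_upwards [hx.nhds_target] with z hz
      have := hlog e _ (At.of_target hx.1 hz)
      rw [e.right_inv hz] at this
      exact this
    rw [cHess_congr h1]
    have h2 : -cHess (ψ e) (e x) + g e (e x) = (t : ℂ) • w e (e x) := by
      rw [hg]; simp only; abel
    rw [h2]
    exact posSemidef_ofReal_smul (hw.posDef e x hx).posSemidef ht0
  -- the Schwarz lemma
  have hS := hGL g h hgK hh hric κ hκ hκ0 hcurv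
  set V : ℝ := intX (fun e z => (g e z).det.re) with hV
  have hDens := isDensity_kt hgH hh hκ
  have hDnn : ∀ e x, At e x →
      0 ≤ κ (e.symm (e x)) * ((g e (e x))⁻¹ * h e (e x)).trace.re * (g e (e x)).det.re := by
    intro e x hx
    have h1 := trace_mul_nonneg_re (hgH.posDef e x hx).inv.posSemidef (hh.pos e x hx)
    exact mul_nonneg (mul_nonneg (hκ0 _) h1) (hgH.det_re_pos hx).le
  have hB := ball_le_intX hDens hDnn hx₁.1 hbt
  -- the function u
  obtain ⟨u, hu, hu1, hu2⟩ := exists_diff' hφ hψ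
  have huc : Continuous u := INT.SmoothFn.continuous hu
  obtain ⟨y₀, -, hy₀⟩ := isCompact_univ.exists_isMaxOn
    (⟨x₁, mem_univ x₁⟩ : (univ : Set X).Nonempty) huc.continuousOn
  set M : ℝ := u y₀ with hM
  have huM : ∀ x, u x ≤ M := fun x => hy₀ (mem_univ x)
  set u0 : X → ℝ := fun x => u x - M with hu0
  have hu0s : SmoothFn (n := n) u0 := fun e x hx => (hu e x hx).sub contDiffAt_const
  have hu0h : ∀ (e : Chart n X) x, At e x → cHess (fun z => u0 (e.symm z)) (e x) =
      cHess (fun z => u (e.symm z)) (e x) := by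
    intro e x hx
    have h1 : (fun z => u0 (e.symm z)) = fun z => u (e.symm z) - (fun _ => M) z := rfl
    rw [h1, cHess_sub (INT.SmoothFn.two (n := n) (X := X) hu e x hx) contDiffAt_const, cHess_const, sub_zero]
  have hu0A : ∀ (e : Chart n X) x, At e x → (cHess (fun z => u0 (e.symm z)) (e x) +
      ((A' + (a + 1) : ℝ) : ℂ) • w e (e x)).PosSemidef := by
    intro e x hx
    rw [hu0h e x hx]
    have h1 : cHess (fun z => u (e.symm z)) (e x) + ((A' + (a + 1) : ℝ) : ℂ) • w e (e x) =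
        (cHess (ψ e) (e x) + (t : ℂ) • w e (e x)) +
          ((A' : ℂ) • w e (e x) - cHess (φ e) (e x)) +
          ((a + 1 - t : ℝ) : ℂ) • w e (e x) := by
      rw [hu2 e x hx]
      push_cast
      module
    rw [h1]
    exact ((hpos e x hx).posSemidef.add (hA' e x hx)).add
      (posSemidef_ofReal_smul (hw.posDef e x hx).posSemidef (by linarith))
  have hδ' := hHAδ u0 hu0s hu0A (fun x => by rw [hu0]; simp only; linarith [huM x])
    ⟨y₀, by rw [hu0]; simp only; rw [← hM]; ring⟩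
  -- pointwise lower bound on the ball
  have hpt : ∀ z ∈ Metric.ball (e₁ x₁) r,
      c3' * Real.exp ((1 - p) * M) * Real.exp (u0 (e₁.symm z)) ≤
        κ (e₁.symm z) * ((g e₁ z)⁻¹ * h e₁ z).trace.re * (g e₁ z).det.re := by
    intro z hz
    have hzc : z ∈ Metric.closedBall (e₁ x₁) r := Metric.ball_subset_closedBall hz
    obtain ⟨hzt, hz1, hz2, hz3⟩ := hball hzc
    have hAt := At.of_target hx₁.1 hzt
    have hgz : (g e₁ z).PosDef := by
      have := hgH.posDef e₁ _ hAt; rwa [e₁.right_inv hzt] at this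
    have hhz : (h e₁ z).PosSemidef := by
      have := hh.pos e₁ _ hAt; rwa [e₁.right_inv hzt] at this
    have hdz : (g e₁ z).det.re = Real.exp (ψ e₁ z) := by
      have := hdetg e₁ _ hAt; rwa [e₁.right_inv hzt] at this
    have huz : u (e₁.symm z) = ψ e₁ z - φ e₁ z := by
      have := hu1 e₁ _ hAt; rwa [e₁.right_inv hzt] at this
    have h1 := amgm_pair hn hgz hhz
    rw [← hp, hdz] at h1
    have h2 : d0 ^ p * Real.exp (-(p * ψ e₁ z)) ≤
        ((h e₁ z).det.re / Real.exp (ψ e₁ z)) ^ p := by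
      rw [Real.div_rpow (by linarith) (Real.exp_pos _).le, ← Real.exp_mul, div_eq_mul_inv,
        ← Real.exp_neg]
      have h3 : d0 ^ p ≤ (h e₁ z).det.re ^ p := Real.rpow_le_rpow hd0p.le hz2.le hp0.le
      have h4 : -(ψ e₁ z * p) = -(p * ψ e₁ z) := by ring
      rw [h4]
      exact mul_le_mul_of_nonneg_right h3 (Real.exp_pos _).le
    have h5 : n * (d0 ^ p * Real.exp (-(p * ψ e₁ z))) ≤ ((g e₁ z)⁻¹ * h e₁ z).trace.re :=
      (mul_le_mul_of_nonneg_left h2 hn0.le).trans h1
    have h6 : k0 * (n * (d0 ^ p * Real.exp (-(p * ψ e₁ z)))) ≤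
        κ (e₁.symm z) * ((g e₁ z)⁻¹ * h e₁ z).trace.re :=
      mul_le_mul hz1.le h5 (by positivity) (by linarith)
    rw [hdz]
    refine le_trans ?_ (mul_le_mul_of_nonneg_right h6 (Real.exp_pos _).le)
    have h7 : k0 * (n * (d0 ^ p * Real.exp (-(p * ψ e₁ z)))) * Real.exp (ψ e₁ z) =
        k0 * (n * d0 ^ p) * Real.exp ((1 - p) * ψ e₁ z) := by
      have : Real.exp ((1 - p) * ψ e₁ z) = Real.exp (-(p * ψ e₁ z)) * Real.exp (ψ e₁ z) := by
        rw [← Real.exp_add]; congr 1; ring
      rw [this]; ring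
    rw [h7]
    have h8 : c3' * Real.exp ((1 - p) * M) * Real.exp (u0 (e₁.symm z)) =
        k0 * (n * d0 ^ p) * Real.exp ((1 - p) * m0 + (1 - p) * M + u0 (e₁.symm z)) := by
      rw [hc3', Real.exp_add, Real.exp_add]; ring
    rw [h8]
    refine mul_le_mul_of_nonneg_left (Real.exp_le_exp.2 ?_) (by positivity)
    have h9 : ψ e₁ z = φ e₁ z + M + u0 (e₁.symm z) := by
      rw [hu0]; simp only; rw [huz]; ring
    have h10 : u0 (e₁.symm z) ≤ 0 := by
      rw [hu0]; simp only; linarith [huM (e₁.symm z)]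
    rw [h9]
    nlinarith
  -- integrate
  have hint1 : IntegrableOn (fun z => c3' * Real.exp ((1 - p) * M) *
      Real.exp (u0 (e₁.symm z))) (Metric.ball (e₁ x₁) r) := by
    have : ContinuousOn (fun z => c3' * Real.exp ((1 - p) * M) * Real.exp (u0 (e₁.symm z)))
        (Metric.closedBall (e₁ x₁) r) :=
      continuousOn_const.mul (Real.continuous_exp.comp_continuousOn
        ((INT.SmoothFn.continuous hu0s).comp_continuousOn (e₁.continuousOn_symm.mono hbt)))
    exact (this.integrableOn_compact (isCompact_closedBall _ _)).mono_set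
      Metric.ball_subset_closedBall
  have hint2 : IntegrableOn (fun z => κ (e₁.symm z) * ((g e₁ z)⁻¹ * h e₁ z).trace.re *
      (g e₁ z).det.re) (Metric.ball (e₁ x₁) r) :=
    (((hDens.continuousOn hx₁.1).mono hbt).integrableOn_compact
      (isCompact_closedBall _ _)).mono_set Metric.ball_subset_closedBall
  have hI := setIntegral_mono_on hint1 hint2 measurableSet_ball hpt
  rw [integral_const_mul] at hI
  have hlow : c3 * Real.exp ((1 - p) * M) ≤ V := by
    have h1 : c3' * Real.exp ((1 - p) * M) * δ ≤ 4 * V := by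
      refine le_trans (mul_le_mul_of_nonneg_left hδ' (by positivity)) ?_
      exact hI.trans (hB.trans hS)
    rw [hc3]; linarith
  have hup : V ≤ C4 * Real.exp M := by
    have h1 : V ≤ intX (fun e z => Real.exp M * Real.exp (φ e z)) := by
      refine intX_mono (INT.IsKahler.isClosedForm hgK).isDensity ((isDensity_exp hφ).const_mul _)
        fun e x hx => ?_
      show (g e (e x)).det.re ≤ _
      rw [hdetg e x hx, ← Real.exp_add]
      apply Real.exp_le_exp.2
      have h2 := hu1 e x hx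
      have h3 := huM x
      linarith
    rw [intX_const_mul] at h1
    have h2 := Real.exp_pos M
    rw [hC4]
    nlinarith
  exact final_arith hn hc3p hC4p hlow hup

end Vale.Agent.P272.K.QN
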