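import Vale.Agent.P272.K.C2.PosLin
import Vale.Agent.P272.K.Stmt
import Mathlib.Analysis.MeanInequalities

/-! AM-GM for Hermitian matrices. -/

open scoped ComplexOrder
open Matrix

noncomputable section

namespace Vale.Agent.P272.K.QN

variable {n : ℕ}

/-- AM-GM for the eigenvalues of a positive semidefinite matrix -/
theorem amgm_psd (hn : 1 ≤ n) {M : Matrix (Fin n) (Fin n) ℂ} (hM : M.PosSemidef) :
    (n : ℝ) * M.det.re ^ (1 / (n : ℝ)) ≤ M.trace.re := by
  have hn0 : (0 : ℝ) < n := by exact_mod_cast hn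
  have hH := hM.isHermitian
  have e1 : M.det.re = ∏ i, hH.eigenvalues i := by
    have := hH.det_eq_prod_eigenvalues
    rw [this]
    norm_cast
  have e2 : M.trace.re = ∑ i, hH.eigenvalues i := by
    have := hH.trace_eq_sum_eigenvalues
    rw [this]
    norm_cast
  have h0 : ∀ i, 0 ≤ hH.eigenvalues i := fun i => hM.eigenvalues_nonneg i
  rw [e1, e2]
  have h := Real.geom_mean_le_arith_mean_weighted (Finset.univ : Finset (Fin n))
    (fun _ => 1 / (n : ℝ)) hH.eigenvalues (fun _ _ => by positivity)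
    (by simp [hn0.ne']) (fun i _ => h0 i)
  rw [Real.finsetProd_rpow _ _ (fun i _ => h0 i), ← Finset.mul_sum] at h
  calc (n : ℝ) * (∏ i, hH.eigenvalues i) ^ (1 / (n : ℝ))
      ≤ n * (1 / n * ∑ i, hH.eigenvalues i) := mul_le_mul_of_nonneg_left h hn0.le
    _ = _ := by field_simp

/-- `tr (g⁻¹ h) ≥ n (det h / det g)^(1/n)` -/
theorem amgm_pair (hn : 1 ≤ n) {g h : Matrix (Fin n) (Fin n) ℂ} (hg : g.PosDef)
    (hh : h.PosSemidef) :
    (n : ℝ) * (h.det.re / g.det.re) ^ (1 / (n : ℝ)) ≤ (g⁻¹ * h).trace.re := by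
  obtain ⟨B, hB⟩ := C2.exists_factor hg.inv.posSemidef
  have hM : (B * h * Bᴴ).PosSemidef := hh.mul_mul_conjTranspose_same B
  have h1 := amgm_psd hn hM
  have e1 : (g⁻¹ * h).trace = (B * h * Bᴴ).trace := by
    rw [hB, Matrix.mul_assoc, Matrix.trace_mul_comm]
  have hgr : ((g.det.re : ℝ) : ℂ) = g.det := by
    have := hg.det_pos
    rw [Complex.lt_def] at this
    apply Complex.ext
    · simp
    · simpa using this.2
  have hgp : 0 < g.det.re := (Complex.lt_def.1 hg.det_pos).1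
  have e2 : (B * h * Bᴴ).det = h.det * (g.det)⁻¹ := by
    have : (Bᴴ * B).det = (g.det)⁻¹ := by
      rw [← hB, Matrix.det_nonsing_inv, Ring.inverse_eq_inv']
    rw [← this, Matrix.det_mul, Matrix.det_mul, Matrix.det_mul]
    ring
  have e3 : (B * h * Bᴴ).det.re = h.det.re / g.det.re := by
    rw [e2, ← hgr, ← Complex.ofReal_inv, Complex.re_mul_ofReal, div_eq_mul_inv, Complex.ofReal_re]
  rw [e1, ← e3]
  exact h1

end Vale.Agent.P272.K.QN
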