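import Vale.Agent.P272.K.QN.Defs
import Vale.Agent.P272.K.QN.H527.Mat
import Vale.Agent.P272.K.Asm.Phase1
import Mathlib.Topology.UrysohnsLemma

/-! Auxiliary lemmas for the block VO. -/

open scoped Manifold ContDiff Topology ComplexConjugate ComplexOrder
open TopologicalSpace (Opens)
open Matrix MeasureTheory Set Filter
open Vale.Agent.P272.K.INT

set_option linter.all false

noncomputable section

namespace Vale.Agent.P272.K.QN

variable {n : ℕ} {X : Type*} [TopologicalSpace X] [ChartedSpace (Cm n) X]
  [IsManifold 𝓘(ℂ, Cm n) ω X]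

lemma IsSemi.isForm {h : Chart n X → Cm n → Matrix (Fin n) (Fin n) ℂ} (hh : IsSemi h) :
    IsForm h := hh.change

/-- the density `κ tr_g h det g` -/
lemma isDensity_kt {g h : Chart n X → Cm n → Matrix (Fin n) (Fin n) ℂ} (hg : IsHermitian g)
    (hh : IsSemi h) {κ : X → ℝ} (hκ : Continuous κ) :
    IsDensity fun e z => κ (e.symm z) * ((g e z)⁻¹ * h e z).trace.re * (g e z).det.re where
  cont e x hx := by
    have hgi : ∀ i j, ContDiffAt ℝ ∞ (fun y => (g e y)⁻¹ i j) (e x) :=
      fun i j => contDiffAt_inv (hg.smooth e x hx) (hg.det_ne_zero hx) i j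
    have h1 := contDiffAt_trace_mul hgi (hh.smooth e x hx)
    have h4 := contDiffAt_det (hg.smooth e x hx)
    have h5 : ContinuousAt (fun z => κ (e.symm z)) (e x) :=
      hκ.continuousAt.comp (e.continuousAt_symm (e.map_source hx.2))
    exact (h5.mul (contDiffAt_re h1).continuousAt).mul (contDiffAt_re h4).continuousAt
  change e e' x hx hx' := by
    show κ (e.symm (e x)) * _ * _ = (κ (e'.symm (e' x)) * _ * _) * _
    rw [e.left_inv hx.2, e'.left_inv hx'.2, trace_inv hg.isForm hh.isForm hx hx',
      det_form_re hg.isForm hx hx']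
    ring

lemma isDensity_exp {φ : Chart n X → Cm n → ℝ} (hφ : IsCanonicalMetric φ) :
    IsDensity fun e z => Real.exp (φ e z) where
  cont e x hx := Real.continuous_exp.continuousAt.comp (hφ.smooth e x hx).continuousAt
  change e e' x hx hx' := by
    show Real.exp (φ e (e x)) = Real.exp (φ e' (e' x)) * _
    rw [hφ.change e e' x hx hx', Real.exp_add, Real.exp_log]
    exact pow_pos (norm_pos_iff.2 (jacM_det_ne_zero hx hx')) 2

/-- the integral over a coordinate ball is at most the integral over `X` -/
lemma ball_le_intX [T2Space X] [CompactSpace X] {D : Chart n X → Cm n → ℝ} (hD : IsDensity D)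
    (h0 : ∀ e x, At e x → 0 ≤ D e (e x)) {e : Chart n X} (he : e ∈ atlas (Cm n) X) {z₀ : Cm n}
    {r : ℝ} (hb : Metric.closedBall z₀ r ⊆ e.target) :
    ∫ z in Metric.ball z₀ r, D e z ≤ intX D := by
  set K : Set X := e.symm '' Metric.closedBall z₀ r with hK
  have hKc : IsCompact K :=
    (isCompact_closedBall z₀ r).image_of_continuousOn (e.continuousOn_symm.mono hb)
  have hKs : K ⊆ e.source := by
    rintro _ ⟨z, hz, rfl⟩; exact e.map_target (hb hz)
  obtain ⟨f, hf1, hf2, hf3⟩ := exists_tsupport_one_of_isOpen_isClosed e.open_source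
    isClosed_closure.isCompact hKc.isClosed hKs
  have hDf : IsDensity (fun e z => f (e.symm z) * D e z) := hD.smul f.continuous
  have h1 : intX (fun e z => f (e.symm z) * D e z) ≤ intX D := by
    refine intX_mono hDf hD fun e' x hx => ?_
    have := h0 e' x hx
    have h3 := (hf3 (e'.symm (e' x))).2
    nlinarith
  refine le_trans ?_ h1
  rw [intX_of_support hDf he (isClosed_tsupport f) hf1 (fun e' x hx hxK => by
    show f (e'.symm (e' x)) * D e' (e' x) = 0
    rw [hx.left_inv, image_eq_zero_of_notMem_tsupport hxK, zero_mul])]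
  have h2 : ∫ z in Metric.ball z₀ r, D e z = ∫ z in Metric.ball z₀ r, f (e.symm z) * D e z := by
    refine setIntegral_congr_fun measurableSet_ball fun z hz => ?_
    have hz' : z ∈ Metric.closedBall z₀ r := Metric.ball_subset_closedBall hz
    have : f (e.symm z) = 1 := hf2 ⟨z, hz', rfl⟩
    simp only [this, one_mul]
  rw [h2]
  refine setIntegral_mono_set (integrableOn_dens hD he f.continuous hf1) ?_
    (Metric.ball_subset_closedBall.trans hb).eventuallyLE
  filter_upwards [self_mem_ae_restrict e.open_target.measurableSet] with z hz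
  have := h0 e (e.symm z) ⟨he, e.map_target hz⟩
  rw [e.right_inv hz] at this
  exact mul_nonneg (hf3 _).1 this

/-- the constant `C` with `b ≤ C h`, for any smooth Hermitian form `b` -/
theorem exists_comparison_form [CompactSpace X] {h b : Chart n X → Cm n → Matrix (Fin n) (Fin n) ℂ}
    (hh : IsHermitian h) (hs : ∀ e x, At e x → ∀ i j, ContDiffAt ℝ ∞ (fun z => b e z i j) (e x))
    (hH : ∀ e x, At e x → (b e (e x)).IsHermitian) (hf : IsForm b) :
    ∃ C : ℝ, 0 < C ∧ ∀ e x, At e x → ((C : ℂ) • h e (e x) - b e (e x)).PosSemidef := by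
  have key : ∃ C : ℝ, 0 < C ∧ ∀ x ∈ (univ : Set X), ∀ e, At e x →
      ((C : ℂ) • h e (e x) - b e (e x)).PosSemidef := by
    have hC : ∀ {C C' : ℝ} {M N : Matrix (Fin n) (Fin n) ℂ}, M.PosDef → C ≤ C' →
        ((C : ℂ) • M - N).PosSemidef → ((C' : ℂ) • M - N).PosSemidef := by
      intro C C' M N hM hCC h
      have h1 : ((C' - C : ℝ) : ℂ) • M = (C' - C : ℝ) • M := by
        ext i j; simp
      have h2 : (((C' - C : ℝ) : ℂ) • M).PosSemidef := by
        rw [h1]; exact hM.posSemidef.smul (sub_nonneg.2 hCC)
      have h3 : (C' : ℂ) • M - N = ((C : ℂ) • M - N) + ((C' - C : ℝ) : ℂ) • M := by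
        push_cast
        rw [sub_smul]; abel
      rw [h3]
      exact h.add h2
    refine isCompact_univ.induction_on (p := fun s => ∃ C : ℝ, 0 < C ∧ ∀ x ∈ s, ∀ e, At e x →
      ((C : ℂ) • h e (e x) - b e (e x)).PosSemidef) ?_ ?_ ?_ ?_
    · exact ⟨1, one_pos, fun x hx => hx.elim⟩
    · rintro s t hst ⟨C, hC0, hCt⟩
      exact ⟨C, hC0, fun x hx => hCt x (hst hx)⟩
    · rintro s t ⟨C, hC0, hCs⟩ ⟨C', hC0', hCt⟩
      refine ⟨max C C', lt_max_of_lt_left hC0, ?_⟩
      rintro x (hx | hx) e hex
      · exact hC (hh.posDef e x hex) (le_max_left _ _) (hCs x hx e hex)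
      · exact hC (hh.posDef e x hex) (le_max_right _ _) (hCt x hx e hex)
    · intro x _
      set c := chartAt (Cm n) x with hc
      have hAt : At c x := ⟨chart_mem_atlas _ x, mem_chart_source _ x⟩
      obtain ⟨r, hr, hball⟩ := Metric.nhds_basis_closedBall.mem_iff.1
        (c.open_target.mem_nhds hAt.mem_target)
      obtain ⟨C, hC0, hCK⟩ := exists_quad_lower (isCompact_closedBall (c x) r)
        (fun z => h c z) (fun z => b c z)
        (fun i j => (hh.continuousOn_entry hAt.1 i j).mono hball)
        (fun i j z hz => by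
          have h1 := hs c (c.symm z) ⟨hAt.1, c.map_target (hball hz)⟩ i j
          rw [c.right_inv (hball hz)] at h1
          exact h1.continuousAt.continuousWithinAt)
        (fun z hz => hh.posDef_target hAt.1 (hball hz))
      refine ⟨c.source ∩ c ⁻¹' Metric.closedBall (c x) r, ?_, C, hC0, ?_⟩
      · refine mem_nhdsWithin_of_mem_nhds (inter_mem (c.open_source.mem_nhds hAt.2) ?_)
        exact (c.continuousAt hAt.2).preimage_mem_nhds (Metric.closedBall_mem_nhds _ hr)
      · rintro y ⟨hy1, hy2⟩ e hey
        have hcy : At c y := ⟨hAt.1, hy1⟩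
        have h1 : ((C : ℂ) • h c (c y) - b c (c y)).PosSemidef := by
          refine posSemidef_of_quad ?_ fun ξ => ?_
          · refine Matrix.IsHermitian.sub ?_ (hH c y hcy)
            have := (hh.posDef c y hcy).isHermitian
            ext i j
            simp only [Matrix.conjTranspose_apply, Matrix.smul_apply, smul_eq_mul, star_mul',
              RCLike.star_def, Complex.conj_ofReal]
            have h2 := this.apply i j
            simp only [RCLike.star_def] at h2
            rw [h2]
          · have h2 := hCK (c y) hy2 ξ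
            have h3 : quad ((C : ℂ) • h c (c y) - b c (c y)) ξ =
                (C : ℂ) * quad (h c (c y)) ξ - quad (b c (c y)) ξ := by
              unfold quad
              rw [Finset.mul_sum, ← Finset.sum_sub_distrib]
              refine Finset.sum_congr rfl fun i _ => ?_
              rw [Finset.mul_sum, ← Finset.sum_sub_distrib]
              refine Finset.sum_congr rfl fun j _ => ?_
              simp only [Matrix.sub_apply, Matrix.smul_apply, smul_eq_mul]
              ring
            rw [h3, Complex.sub_re, Complex.re_ofReal_mul]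
            linarith
        have h2 : ((C : ℂ) • h e (e y) - b e (e y)) =
            (jacM e c y).transpose * ((C : ℂ) • h c (c y) - b c (c y)) *
              (jacM e c y).map (starRingEnd ℂ) := by
          rw [hh.change e c y hey hcy, hf e c y hey hcy]
          rw [Matrix.mul_sub, Matrix.sub_mul, Matrix.mul_smul, Matrix.smul_mul]
        rw [h2]
        exact posSemidef_form h1 _
  obtain ⟨C, hC0, h⟩ := key
  exact ⟨C, hC0, fun e x hx => h x (mem_univ x) e hx⟩

end Vale.Agent.P272.K.QN
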